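import Vale.Agent.P216.H787.Cls
import Vale.Agent.P216.H133C.ThomOut

/-!
# P216-D, block [BRIDGE]: the list form of `H^*(M; k) = k[ξ] / (ξ ^ (h + 1))`
-/

open Set

namespace Vale.Agent.P216.H934D

open Vale.Agent.P216.PS Vale.Agent.P216.Sl
open Vale.Agent.P216.H133C (pw)
open Vale.Agent.P216.N929 (Coc)

/-- `H^*(M; k) = k[ξ] / (ξ ^ (h + 1))`, `ξ` of degree `d`, for list cochains: `ξ` is normalised and a
cocycle, its powers `pw ξ d j`, `j ≤ h`, are not exact, every cocycle of degree `d * j` is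
cohomologous to a multiple of the `j`-th power, and the cocycles of other degrees are exact. -/
structure BaseK (k M : Type) [Field k] [MetricSpace M] (d h : ℕ) where
  ξ : List M → k
  ε : ℝ
  hε : 0 < ε
  nξ : Nrm ξ
  cξ : Coc (univ : Set M) ε d ξ
  ne : ∀ j ≤ h, ¬ ExL (univ : Set M) (d * j) (pw ξ d j)
  line : ∀ j ≤ h, ∀ c : List M → k, CocL (univ : Set M) (d * j) c →
    ∃ a : k, ExL (univ : Set M) (d * j) fun l => c l - a * pw ξ d j l
  zero : ∀ q, (∀ j ≤ h, q ≠ d * j) → ∀ c : List M → k, CocL (univ : Set M) q c →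
    ExL (univ : Set M) q c

end Vale.Agent.P216.H934D
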