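import Vale.Agent.P216.H215.Monogenic
import Vale.Agent.P216.H934D.BaseK

/-!
# P216-D, block [BRIDGE]: from `Monogenic M k d h` to list cochains
-/

open Set Finsupp Topology Matrix

namespace Vale.Agent.P216.H934D

open Vale.Agent.P216.PS Vale.Agent.P216.Sl Vale.Agent.P216.ASCoh
open Vale.Agent.P216.H133C (pw)
open Vale.Agent.P216.N929 (Coc Fine)

section tuples

variable {X k : Type} [Field k]

theorem d_eq_sum {n : ℕ} (c : (Fin n → X) → k) (σ : Fin (n + 1) → X) :
    P265.AS.d c σ = ∑ i : Fin (n + 1), (-1) ^ (i : ℕ) * c (fun j => σ (i.succAbove j)) := by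
  induction n with
  | zero =>
    rw [P265.AS.d_zero_apply, Fin.sum_univ_one]
    simp only [Fin.val_zero, pow_zero, one_mul]
    congr 1
  | succ n ih =>
    rw [P265.AS.d_succ_apply, ih, Fin.sum_univ_succ (n := n + 1), sub_eq_add_neg]
    congr 1
    · simp only [Fin.val_zero, pow_zero, one_mul]
      congr 1
    · rw [← Finset.sum_neg_distrib]
      refine Finset.sum_congr rfl fun i _ => ?_
      have e : (fun j => σ (i.succ.succAbove j)) =
          vecCons (vecHead σ) fun j => vecTail σ (i.succAbove j) := by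
        funext j
        refine Fin.cases ?_ (fun j => ?_) j
        · rw [Fin.succ_succAbove_zero]
          rfl
        · rw [Fin.succ_succAbove_succ]
          rfl
      rw [e, Fin.val_succ, pow_succ]
      ring

theorem cobd_eq_d {q : ℕ} (g : Cochain X k q) : cobd g = P265.AS.d g := by
  funext σ
  rw [d_eq_sum]
  rfl

theorem toL_cobd {q : ℕ} (g : Cochain X k q) (l : List X) : toL (cobd g) l = dl (toL g) l := by
  rw [cobd_eq_d, toL_d]

theorem toL_sub' {n : ℕ} (c c' : (Fin n → X) → k) (l : List X) :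
    toL (c - c') l = toL c l - toL c' l := by
  by_cases h : l.length = n
  · obtain ⟨x, rfl⟩ := exists_ofFn h
    rw [toL_ofFn, toL_ofFn, toL_ofFn]
    rfl
  · rw [toL_of_ne _ h, toL_of_ne _ h, toL_of_ne _ h, sub_zero]

theorem toL_smul' {n : ℕ} (a : k) (c : (Fin n → X) → k) (l : List X) :
    toL (a • c) l = a * toL c l := by
  by_cases h : l.length = n
  · obtain ⟨x, rfl⟩ := exists_ofFn h
    rw [toL_ofFn, toL_ofFn]
    rfl
  · rw [toL_of_ne _ h, toL_of_ne _ h, mul_zero]

end tuples

section compact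

variable {M k : Type} [Field k] [MetricSpace M] [CompactSpace M]

theorem locZero_iff {q : ℕ} (f : Cochain M k q) :
    LocZero f ↔ ∃ ε > 0, ∀ l : List M, l.length = q + 1 → SmL (univ : Set M) ε l → toL f l = 0 := by
  constructor
  · intro h
    choose U hU hf using h
    obtain ⟨δ, hδ, h1⟩ := lebesgue_number_lemma_of_metric (s := (univ : Set M))
      (c := fun x => interior (U x)) isCompact_univ (fun x => isOpen_interior)
      fun x _ => mem_iUnion.2 ⟨x, mem_interior_iff_mem_nhds.2 (hU x)⟩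
    refine ⟨δ, hδ, fun l hl hs => ?_⟩
    obtain ⟨σ, rfl⟩ := exists_ofFn hl
    rw [toL_ofFn]
    obtain ⟨x, hx⟩ := h1 (σ 0) (mem_univ _)
    refine hf x σ fun i => interior_subset (hx ?_)
    exact hs.2 _ (List.mem_ofFn.2 ⟨i, rfl⟩) _ (List.mem_ofFn.2 ⟨0, rfl⟩)
  · rintro ⟨ε, hε, h⟩ x
    refine ⟨Metric.ball x (ε / 2), Metric.ball_mem_nhds x (by positivity), fun σ hσ => ?_⟩
    rw [← toL_ofFn f σ]
    refine h _ List.length_ofFn ⟨fun _ _ => mem_univ _, fun y hy z hz => ?_⟩
    obtain ⟨i, rfl⟩ := List.mem_ofFn.1 hy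
    obtain ⟨j, rfl⟩ := List.mem_ofFn.1 hz
    have h1 : dist (σ i) x < ε / 2 := hσ i
    have h2 : dist (σ j) x < ε / 2 := hσ j
    calc dist (σ i) (σ j) ≤ dist (σ i) x + dist (σ j) x := dist_triangle_right _ _ _
      _ < ε := by linarith

theorem isCocycle_iff {q : ℕ} (f : Cochain M k q) :
    IsCocycle f ↔ CocL (univ : Set M) q (toL f) := by
  unfold IsCocycle
  rw [locZero_iff]
  simp only [toL_cobd]
  rfl

theorem isCobd_iff {q : ℕ} (f : Cochain M k q) : IsCobd f ↔ ExL (univ : Set M) q (toL f) := by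
  cases q with
  | zero =>
    change LocZero f ↔ _
    rw [locZero_iff]
    constructor
    · rintro ⟨ε, hε, h⟩
      refine ⟨fun _ => 0, fun _ _ => rfl, ε, hε, fun l hl hs => ?_⟩
      rw [h l hl hs, PS.dl_zero_fun]
    · rintro ⟨g, hg, ε, hε, h⟩
      refine ⟨ε, hε, fun l hl hs => ?_⟩
      have h3 : g = fun _ => 0 := funext (hg rfl)
      rw [h l hl hs, h3, PS.dl_zero_fun]
  | succ q =>
    change (∃ g : Cochain M k q, LocZero (f - cobd g)) ↔ _
    constructor
    · rintro ⟨g, hg⟩
      obtain ⟨ε, hε, h⟩ := (locZero_iff _).1 hg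
      refine ⟨toL g, fun h0 => absurd h0 (Nat.succ_ne_zero q), ε, hε, fun l hl hs => ?_⟩
      have h1 := h l hl hs
      rw [toL_sub', toL_cobd, sub_eq_zero] at h1
      exact h1
    · rintro ⟨g, -, ε, hε, h⟩
      refine ⟨ofL (q + 1) g, (locZero_iff _).2 ⟨ε, hε, fun l hl hs => ?_⟩⟩
      rw [toL_sub', toL_cobd, sub_eq_zero, h l hl hs]
      refine N929.dl_congr fun l' hl' _ => ?_
      rw [toL_ofL g (by omega)]

end compact

section lists

variable {M k : Type} [Field k] [MetricSpace M]

theorem exL_congr {q : ℕ} {f f' : List M → k} (hf : ExL (univ : Set M) q f)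
    (h : ∀ l, l.length = q + 1 → f' l = f l) : ExL (univ : Set M) q f' := by
  obtain ⟨g, hg, ε, hε, h1⟩ := hf
  exact ⟨g, hg, ε, hε, fun l hl hs => (h l hl).trans (h1 l hl hs)⟩

theorem cocL_congr {q : ℕ} {f f' : List M → k} (hf : CocL (univ : Set M) q f)
    (h : ∀ l, l.length = q + 1 → f' l = f l) : CocL (univ : Set M) q f' := by
  obtain ⟨ε, hε, h1⟩ := hf
  refine ⟨ε, hε, fun l hl hs => ?_⟩
  rw [← h1 l hl hs]
  exact N929.dl_congr fun l' hl' _ => h l' (by omega)

theorem exL_add {q : ℕ} {f f' : List M → k} (hf : ExL (univ : Set M) q f)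
    (hf' : ExL (univ : Set M) q f') : ExL (univ : Set M) q fun l => f l + f' l := by
  obtain ⟨g, hg, ε, hε, h⟩ := hf
  obtain ⟨g', hg', ε', hε', h'⟩ := hf'
  refine ⟨fun l => g l + g' l, fun h0 l => by simp only [hg h0, hg' h0, add_zero], min ε ε',
    lt_min hε hε', fun l hl hs => ?_⟩
  rw [PS.dl_add, ← h l hl (hs.mono subset_rfl (min_le_left _ _)),
    ← h' l hl (hs.mono subset_rfl (min_le_right _ _))]

theorem exL_smul {q : ℕ} {f : List M → k} (a : k) (hf : ExL (univ : Set M) q f) :
    ExL (univ : Set M) q fun l => a * f l := by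
  obtain ⟨g, hg, ε, hε, h⟩ := hf
  refine ⟨fun l => a * g l, fun h0 l => by simp only [hg h0, mul_zero], ε, hε, fun l hl hs => ?_⟩
  rw [PS.dl_smul, ← h l hl hs]

/-- The cup powers: the last factor can be split off instead of the first one. -/
theorem pw_succ_right {α : Type} (x : List α → k) (d : ℕ) : ∀ (j : ℕ) (l : List α),
    l.length = d * (j + 1) + 1 →
    pw x d (j + 1) l = pw x d j (l.take (d * j + 1)) * x (l.drop (d * j)) := by
  intro j
  induction j with
  | zero =>
    intro l hl
    rw [Nat.zero_add, mul_one] at hl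
    change x (l.take (d + 1)) * (if (l.drop d).length = 1 then 1 else 0) =
      (if (l.take (d * 0 + 1)).length = 1 then 1 else 0) * x (l.drop (d * 0))
    rw [if_pos (by rw [List.length_drop]; omega), if_pos (by rw [List.length_take]; omega),
      mul_one, one_mul, List.take_of_length_le (by omega), Nat.mul_zero, List.drop_zero]
  | succ j ih =>
    intro l hl
    have e1 : d * (j + 1 + 1) = d * (j + 1) + d := by ring
    have e2 : d * (j + 1) = d * j + d := by ring
    change x (l.take (d + 1)) * pw x d (j + 1) (l.drop d) =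
      (x ((l.take (d * (j + 1) + 1)).take (d + 1)) * pw x d j ((l.take (d * (j + 1) + 1)).drop d)) *
        x (l.drop (d * (j + 1)))
    rw [ih (l.drop d) (by rw [List.length_drop]; omega), List.take_take, List.drop_take,
      List.drop_drop, min_eq_left (by omega)]
    have e3 : d * (j + 1) + 1 - d = d * j + 1 := by omega
    have e4 : d + d * j = d * (j + 1) := by ring
    rw [e3, e4]
    ring

omit [MetricSpace M] in
theorem toL_cup {p q : ℕ} (f : Cochain M k p) (g : Cochain M k q) (l : List M)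
    (hl : l.length = p + q + 1) :
    toL (cup f g) l = toL f (l.take (p + 1)) * toL g (l.drop p) := by
  obtain ⟨σ, rfl⟩ := exists_ofFn hl
  rw [toL_ofFn]
  change f _ * g _ = _
  have e1 : (List.ofFn σ).take (p + 1) = List.ofFn fun i : Fin (p + 1) => σ ⟨i, by omega⟩ := by
    apply List.ext_getElem
    · simp
    · intro i h1 h2
      rw [List.getElem_take, List.getElem_ofFn, List.getElem_ofFn]
  have e2 : (List.ofFn σ).drop p = List.ofFn fun i : Fin (q + 1) => σ ⟨p + i, by omega⟩ := by
    apply List.ext_getElem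
    · rw [List.length_drop, List.length_ofFn, List.length_ofFn]
      omega
    · intro i h1 h2
      rw [List.getElem_drop, List.getElem_ofFn, List.getElem_ofFn]
  rw [e1, e2, toL_ofFn, toL_ofFn]

omit [MetricSpace M] in
theorem toL_power {d : ℕ} (x : Cochain M k d) (j : ℕ) : ∀ l : List M, l.length = d * j + 1 →
    toL (power x j) l = pw (toL x) d j l := by
  induction j with
  | zero =>
    intro l hl
    change toL (fun _ => (1 : k)) l = if l.length = 1 then 1 else 0
    obtain ⟨σ, rfl⟩ := exists_ofFn hl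
    rw [if_pos (by rw [List.length_ofFn]; ring), toL_ofFn]
  | succ j ih =>
    intro l hl
    have e2 : d * (j + 1) = d * j + d := by ring
    rw [pw_succ_right _ _ _ _ hl, ← ih _ (by rw [List.length_take]; omega)]
    exact toL_cup (power x j) x l (by omega)

/-- The cup product with a cocycle of degree `d`. -/
theorem cup_cocL {d n : ℕ} {ε : ℝ} (hε : 0 < ε) {ξ f : List M → k}
    (hξ : Coc (univ : Set M) ε d ξ) (hf : CocL (univ : Set M) n f) :
    CocL (univ : Set M) (d + n) (N929.cup d ξ f) := by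
  obtain ⟨ε', hε', hf⟩ := hf
  refine ⟨min ε ε', lt_min hε hε', fun l hl hs => ?_⟩
  have h1 : dl ξ (l.take (d + 2)) = 0 :=
    hξ _ (by rw [List.length_take]; omega) ⟨fun _ _ => mem_univ _, fun x hx y hy =>
      (hs.2 x (List.mem_of_mem_take hx) y (List.mem_of_mem_take hy)).trans_le (min_le_left _ _)⟩
  have h2 : dl f (l.drop d) = 0 :=
    hf _ (by rw [List.length_drop]; omega) ⟨fun _ _ => mem_univ _, fun x hx y hy =>
      (hs.2 x (List.mem_of_mem_drop hx) y (List.mem_of_mem_drop hy)).trans_le (min_le_right _ _)⟩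
  rw [N929.dl_cup d ξ f l (by omega), h1, h2, zero_mul, mul_zero, mul_zero, add_zero]

theorem pw_zero_cocL (ξ : List M → k) (d : ℕ) : CocL (univ : Set M) 0 (pw ξ d 0) := by
  refine ⟨1, one_pos, fun l hl _ => ?_⟩
  obtain ⟨x, y, rfl⟩ := List.length_eq_two.1 hl
  rw [N929.dl_cons, N929.dl_cons, N929.dl_nil]
  simp [pw]

omit [MetricSpace M] in
theorem pw_zero_Nrm (ξ : List M → k) (d : ℕ) : Nrm (pw ξ d 0) := fun l hl => by
  change (if l.length = 1 then (1 : k) else 0) = 0
  rw [if_neg]
  intro h1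
  obtain ⟨x, rfl⟩ := List.length_eq_one_iff.1 h1
  exact hl (List.isChain_singleton x)

/-- The cup powers of a cocycle are cocycles. -/
theorem pw_cocL {d : ℕ} {ε : ℝ} (hε : 0 < ε) {ξ : List M → k}
    (hξ : Coc (univ : Set M) ε d ξ) (j : ℕ) : CocL (univ : Set M) (d * j) (pw ξ d j) := by
  induction j with
  | zero => exact pw_zero_cocL ξ d
  | succ j ih =>
    have e : d + d * j = d * (j + 1) := by ring
    exact e ▸ cup_cocL hε hξ ih

omit [MetricSpace M] in
theorem pw_Nrm {d : ℕ} {ξ : List M → k} (hξ : Nrm ξ) (j : ℕ) : Nrm (pw ξ d j) := by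
  induction j with
  | zero => exact pw_zero_Nrm ξ d
  | succ j ih => exact N929.Nrm.cup d hξ ih

/-- Cup powers of cohomologous cocycles are cohomologous. -/
theorem pw_congr {d : ℕ} (hd : 1 ≤ d) {ε : ℝ} (hε : 0 < ε) {x ξ ν : List M → k}
    (hx : Coc (univ : Set M) ε d x) (hξ : Coc (univ : Set M) ε d ξ)
    (h : ∀ l : List M, l.length = d + 1 → SmL (univ : Set M) ε l → ξ l = x l + dl ν l) (j : ℕ) :
    ∃ μ : List M → k, (j = 0 → μ = fun _ => 0) ∧ ∃ δ > 0, ∀ l : List M, l.length = d * j + 1 →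
      SmL (univ : Set M) δ l → pw ξ d j l = pw x d j l + dl μ l := by
  induction j with
  | zero =>
    refine ⟨fun _ => 0, fun _ => rfl, 1, one_pos, fun l hl hs => ?_⟩
    rw [PS.dl_zero_fun, add_zero]
    rfl
  | succ j ih =>
    obtain ⟨μ, hμ0, δ, hδ, ih⟩ := ih
    obtain ⟨δ', hδ', hc⟩ := pw_cocL hε hξ j
    refine ⟨fun l => N929.cup (d - 1) ν (pw ξ d j) l + (-1) ^ d * N929.cup d x μ l,
      fun h0 => absurd h0 (Nat.succ_ne_zero j), min ε (min δ δ'),
      lt_min hε (lt_min hδ hδ'), fun l hl hs => ?_⟩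
    have e1 : d * (j + 1) = d * j + d := by ring
    have hs1 : SmL (univ : Set M) ε (l.take (d + 1)) :=
      ⟨fun _ _ => mem_univ _, fun y hy z hz => (hs.2 y (List.mem_of_mem_take hy) z
        (List.mem_of_mem_take hz)).trans_le (min_le_left _ _)⟩
    have hs2 : SmL (univ : Set M) δ (l.drop d) :=
      ⟨fun _ _ => mem_univ _, fun y hy z hz => (hs.2 y (List.mem_of_mem_drop hy) z
        (List.mem_of_mem_drop hz)).trans_le ((min_le_right _ _).trans (min_le_left _ _))⟩
    have hs3 : SmL (univ : Set M) δ' (l.drop (d - 1)) :=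
      ⟨fun _ _ => mem_univ _, fun y hy z hz => (hs.2 y (List.mem_of_mem_drop hy) z
        (List.mem_of_mem_drop hz)).trans_le ((min_le_right _ _).trans (min_le_right _ _))⟩
    have hs4 : Fine (univ : Set M) ε (l.take (d + 2)) :=
      ⟨fun _ _ => mem_univ _, fun y hy z hz => (hs.2 y (List.mem_of_mem_take hy) z
        (List.mem_of_mem_take hz)).trans_le (min_le_left _ _)⟩
    have h1 : pw ξ d (j + 1) l =
        (x (l.take (d + 1)) + dl ν (l.take (d + 1))) * pw ξ d j (l.drop d) := by
      rw [← h _ (by rw [List.length_take]; omega) hs1]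
      rfl
    have h2 := ih (l.drop d) (by rw [List.length_drop]; omega) hs2
    have h3 : dl (N929.cup (d - 1) ν (pw ξ d j)) l = dl ν (l.take (d + 1)) * pw ξ d j (l.drop d) := by
      have h4 := N929.dl_cup (d - 1) ν (pw ξ d j) l (by omega)
      have e2 : d - 1 + 2 = d + 1 := by omega
      have e3 : d - 1 + 1 = d := by omega
      rw [e2, e3, hc (l.drop (d - 1)) (by rw [List.length_drop]; omega) hs3, mul_zero, mul_zero,
        add_zero] at h4
      exact h4
    have h5 : dl (N929.cup d x μ) l = (-1) ^ d * (x (l.take (d + 1)) * dl μ (l.drop d)) := by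
      rcases Nat.eq_zero_or_pos j with rfl | hj
      · have e : μ = fun _ => 0 := hμ0 rfl
        have e' : N929.cup d x μ = fun _ => 0 := by
          funext l
          rw [N929.cup, e, mul_zero]
        rw [e', e, PS.dl_zero_fun, PS.dl_zero_fun, mul_zero, mul_zero]
      · have h6 : 1 ≤ d * j := Nat.mul_pos hd hj
        rw [N929.dl_cup d x μ l (by omega), hx _ (by rw [List.length_take]; omega) hs4, zero_mul,
          zero_add]
    rw [PS.dl_add, PS.dl_smul, h3, h5, h1]
    have e7 : ((-1 : k) ^ d) * ((-1) ^ d * (x (l.take (d + 1)) * dl μ (l.drop d))) =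
        x (l.take (d + 1)) * dl μ (l.drop d) := by
      rw [← mul_assoc, ← mul_pow, neg_one_mul, neg_neg, one_pow, one_mul]
    rw [e7]
    change _ = x (l.take (d + 1)) * pw x d j (l.drop d) + _
    rw [add_mul, h2]
    ring

end lists

/-- **[BRIDGE]** -/
theorem baseK_of_monogenic {k M : Type} [Field k] [MetricSpace M] [CompactSpace M] {d h : ℕ}
    (hd : 1 ≤ d) (hM : Monogenic M k d h) : Nonempty (BaseK k M d h) := by
  obtain ⟨x, hx, hne, hsp⟩ := hM
  obtain ⟨ε, hε, hc⟩ := (isCocycle_iff x).1 hx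
  let ξ : List M → k := nrm (toL x)
  let ν : List M → k := hmt (toL x)
  have hcx : Coc (univ : Set M) ε d (toL x) := fun l hl hs => hc l hl ⟨hs.1, hs.2⟩
  have hcξ : Coc (univ : Set M) ε d ξ := by
    intro l hl hs
    change dl (nrm (toL x)) l = 0
    rw [dl_nrm]
    exact nrm_eq_zero fun l' hl' hx' => hc l' (by omega) ⟨fun _ _ => mem_univ _, fun y hy z hz =>
      hs.2 y (hx' y hy) z (hx' z hz)⟩
  have hν : ∀ l : List M, l.length = d + 1 → SmL (univ : Set M) ε l →
      ξ l = toL x l + dl ν l := by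
    intro l hl hs
    have h1 := nrm_sub (toL x) l
    have h2 : hmt (dl (toL x)) l = 0 := hmt_eq_zero fun l' hl' hx' =>
      hc l' (by omega) ⟨fun _ _ => mem_univ _, fun y hy z hz => hs.2 y (hx' y hy) z (hx' z hz)⟩
    rw [h2, add_zero, sub_eq_iff_eq_add] at h1
    rw [add_comm]
    exact h1
  have key : ∀ j, ExL (univ : Set M) (d * j) fun l => pw ξ d j l - toL (power x j) l := by
    intro j
    obtain ⟨μ, hμ0, δ, hδ, hμ⟩ := pw_congr hd hε hcx hcξ hν j
    refine ⟨μ, fun h0 l => ?_, δ, hδ, fun l hl hs => ?_⟩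
    · have : j = 0 := by
        rcases Nat.mul_eq_zero.1 h0 with h1 | h1
        · omega
        · exact h1
      rw [hμ0 this]
    · show pw ξ d j l - toL (power x j) l = dl μ l
      rw [hμ l hl hs, toL_power x j l hl]
      ring
  refine ⟨⟨ξ, ε, hε, nrm_Nrm _, hcξ, ?_, ?_, ?_⟩⟩
  · intro j hj h1
    apply hne j hj
    rw [isCobd_iff]
    refine exL_congr (exL_add h1 (exL_smul (-1) (key j))) fun l _ => ?_
    ring
  · intro j hj c hcc
    have h1 : IsCocycle (ofL (d * j + 1) c : Cochain M k (d * j)) := by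
      rw [isCocycle_iff]
      exact cocL_congr hcc fun l hl => toL_ofL c hl
    rcases hsp (d * j) _ h1 with h2 | ⟨j', hj', e, a, h2⟩
    · refine ⟨0, exL_congr ((isCobd_iff _).1 h2) fun l hl => ?_⟩
      rw [zero_mul, sub_zero, toL_ofL c hl]
    · have e' : j' = j := Nat.eq_of_mul_eq_mul_left (by omega) e
      subst e'
      refine ⟨a, exL_congr (exL_add ((isCobd_iff _).1 h2) (exL_smul (-a) (key j'))) fun l hl => ?_⟩
      rw [toL_sub', toL_smul', toL_ofL c hl]
      ring
  · intro q hq c hcc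
    have h1 : IsCocycle (ofL (q + 1) c : Cochain M k q) := by
      rw [isCocycle_iff]
      exact cocL_congr hcc fun l hl => toL_ofL c hl
    rcases hsp q _ h1 with h2 | ⟨j', hj', e, a, h2⟩
    · exact exL_congr ((isCobd_iff _).1 h2) fun l hl => (toL_ofL c hl).symm
    · exact absurd e.symm (hq j' hj')

/-- The powers only see the values on the lists of `d + 1` points. -/
theorem pw_congr_len {α k : Type} [Field k] {x x' : List α → k} {d : ℕ}
    (h : ∀ l : List α, l.length = d + 1 → x l = x' l) (j : ℕ) : ∀ l : List α,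
    l.length = d * j + 1 → pw x d j l = pw x' d j l := by
  induction j with
  | zero => exact fun l _ => rfl
  | succ j ih =>
    intro l hl
    have e1 : d * (j + 1) = d * j + d := by ring
    change x (l.take (d + 1)) * pw x d j (l.drop d) = x' (l.take (d + 1)) * pw x' d j (l.drop d)
    rw [h _ (by rw [List.length_take]; omega), ih _ (by rw [List.length_drop]; omega)]

/-- **[BRIDGE]**, the other direction. -/
theorem monogenic_of_baseK {k M : Type} [Field k] [MetricSpace M] [CompactSpace M] {d h : ℕ}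
    (B : BaseK k M d h) : Monogenic M k d h := by
  have hp : ∀ j (l : List M), l.length = d * j + 1 →
      toL (power (ofL (d + 1) B.ξ : Cochain M k d) j) l = pw B.ξ d j l := fun j l hl => by
    rw [toL_power _ j l hl]
    exact pw_congr_len (fun l hl => toL_ofL B.ξ hl) j l hl
  refine ⟨ofL (d + 1) B.ξ, ?_, ?_, ?_⟩
  · rw [isCocycle_iff]
    exact cocL_congr ⟨B.ε, B.hε, fun l hl hs => B.cξ l hl ⟨hs.1, hs.2⟩⟩
      fun l hl => toL_ofL B.ξ hl
  · intro j hj h1
    rw [isCobd_iff] at h1
    exact B.ne j hj (exL_congr h1 fun l hl => (hp j l hl).symm)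
  · intro q f hf
    rw [isCocycle_iff] at hf
    by_cases hq : ∃ j ≤ h, d * j = q
    · obtain ⟨j, hj, rfl⟩ := hq
      obtain ⟨a, h1⟩ := B.line j hj _ hf
      refine Or.inr ⟨j, hj, rfl, a, ?_⟩
      rw [isCobd_iff]
      refine exL_congr h1 fun l hl => ?_
      rw [toL_sub', toL_smul']
      change _ - a * toL (power (ofL (d + 1) B.ξ : Cochain M k d) j) l = _
      rw [hp j l hl]
    · push Not at hq
      exact Or.inl ((isCobd_iff f).2 (B.zero q (fun j hj e => hq j hj e.symm) _ hf))

/-- Alexander-Spanier cohomology of a compact metric space in list language. -/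
theorem monogenic_iff {k M : Type} [Field k] [MetricSpace M] [CompactSpace M] {d h : ℕ}
    (hd : 1 ≤ d) : Monogenic M k d h ↔ Nonempty (BaseK k M d h) :=
  ⟨baseK_of_monogenic hd, fun ⟨B⟩ => monogenic_of_baseK B⟩

end Vale.Agent.P216.H934D
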