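import Vale.Agent.P216.H934D.BaseK
import Vale.Agent.P216.H971.LowOut

/-!
# P216-D: the hypotheses of [LOW] from the list form of the cohomology ring of `M`
-/

open Set

namespace Vale.Agent.P216.H934D

open Vale.Agent.P216.PS Vale.Agent.P216.Sl Vale.Agent.P216.H971.Low

variable {k M : Type} [Field k] [MetricSpace M] {d h : ℕ}

theorem BaseK.baseZ (B : BaseK k M d h) {j : ℕ} (h0 : 0 < j) (hj : j < d) : BaseZ k M j := by
  intro f hf
  refine B.zero j (fun i _ e => ?_) f hf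
  rcases Nat.eq_zero_or_pos i with rfl | hi
  · omega
  · have : d * 1 ≤ d * i := Nat.mul_le_mul_left d hi
    omega

/-- Rank `≤ 1` in the degrees `d * j`, `0 < j ≤ h`. -/
theorem BaseK.baseL_mul (B : BaseK k M d h) (hd : 1 ≤ d) {j : ℕ} (h0 : 0 < j) (hj : j ≤ h) :
    BaseL k M (d * j) :=
  baseL_of_gen (x := H133C.pw B.ξ d j) (Nat.mul_pos hd h0).ne' (B.line j hj)

theorem BaseK.baseL (B : BaseK k M d h) (hd : 1 ≤ d) (hh : 1 ≤ h) : BaseL k M d := by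
  have := B.baseL_mul hd (j := 1) one_pos hh
  rwa [mul_one] at this

variable [CompactSpace M] [SimplyConnectedSpace M] {ρ : ℝ}

/-- **[LOW]** from `BaseK`. -/
theorem lowK_of_base (Kf : H977C.Fld) (hρ : 0 < ρ) (hU : LS.UniqSeg M ρ) (hd : 1 ≤ d) (hh : 1 ≤ h)
    (hb : ∀ (k : Type) [Field k], Kf k → Nonempty (BaseK k M d h)) :
    ∃ B, 0 ≤ B ∧ H977C.LowK Kf M (d - 1) B :=
  lowK M Kf hρ hU d fun k _ hk => ⟨fun _ h0 hj => (hb k hk).some.baseZ h0 hj,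
    (hb k hk).some.baseL hd hh⟩

theorem lowLZ_of_base (hρ : 0 < ρ) (hU : LS.UniqSeg M ρ) (hd : 1 ≤ d) (hh : 1 ≤ h) :
    ∃ B, 0 ≤ B ∧ ∀ (k : Type) [Field k], Nonempty (BaseK k M d h) →
      (∀ i, 0 < i → i ≤ d - 1 → LowL k M B i) ∧ ∀ i, 0 < i → i < d - 1 → LowZ k M B i := by
  obtain ⟨B, hB, H⟩ := lowLZ M hρ hU d
  exact ⟨B, hB, fun k _ ⟨b⟩ => H k (fun _ h0 hj => b.baseZ h0 hj) (b.baseL hd hh)⟩

end Vale.Agent.P216.H934D
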