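import Vale.Agent.P216.D239.Defs

/-!
# P216-D, block [D-GC]: the closed stars of a finite complex form a good closed cover
-/

set_option linter.unusedSectionVars false

open Set

namespace Vale.Agent.P216.H934D

open Vale.Agent.P216.D239

variable {V : Type} [Fintype V] (T : FinComplex V)

open Classical in
/-- The barycentre of the list of vertices `σ`. -/
noncomputable def bary (σ : List V) (v : V) : ℝ :=
  if v ∈ σ then 1 / (σ.toFinset.card : ℝ) else 0

/-- The constant of the closed stars. -/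
noncomputable def cst (V : Type) [Fintype V] : ℝ := 1 / (2 * (Fintype.card V : ℝ))

theorem cst_pos [Nonempty V] : 0 < cst V := by
  have : (0 : ℝ) < Fintype.card V := by exact_mod_cast Fintype.card_pos
  unfold cst
  positivity

theorem cst_lt [Nonempty V] : cst V < 1 / (Fintype.card V : ℝ) := by
  have : (0 : ℝ) < Fintype.card V := by exact_mod_cast Fintype.card_pos
  unfold cst
  apply one_div_lt_one_div_of_lt this
  linarith

open Classical in
theorem card_pos' {σ : List V} (h : σ ≠ []) : 0 < σ.toFinset.card := by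
  rw [Finset.card_pos]
  exact (List.toFinset_nonempty_iff σ).2 h

theorem bary_nonneg (σ : List V) (v : V) : 0 ≤ bary σ v := by
  classical
  unfold bary
  split
  · positivity
  · exact le_rfl

open Classical in
theorem bary_sum {σ : List V} (h : σ ≠ []) : ∑ v, bary σ v = 1 := by
  have h1 : (0 : ℝ) < (σ.toFinset.card : ℝ) := by exact_mod_cast card_pos' h
  have h2 : ∀ v, bary σ v = if v ∈ σ.toFinset then 1 / (σ.toFinset.card : ℝ) else 0 := by
    intro v
    unfold bary
    simp only [List.mem_toFinset]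
  rw [Finset.sum_congr rfl fun v _ => h2 v, Finset.sum_ite_mem, Finset.univ_inter,
    Finset.sum_const, nsmul_eq_mul]
  field_simp

theorem bary_pos {σ : List V} {v : V} (h : v ∈ σ) : 0 < bary σ v := by
  classical
  have h1 : (0 : ℝ) < (σ.toFinset.card : ℝ) := by
    exact_mod_cast card_pos' (List.ne_nil_of_mem h)
  unfold bary
  rw [if_pos h]
  positivity

theorem bary_out {σ : List V} {v : V} (h : v ∉ σ) : bary σ v = 0 := by
  classical
  unfold bary
  rw [if_neg h]

theorem cst_le_bary {σ : List V} {v : V} (h : v ∈ σ) : cst V ≤ bary σ v := by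
  classical
  have : Nonempty V := ⟨v⟩
  have h1 : (0 : ℝ) < (σ.toFinset.card : ℝ) := by
    exact_mod_cast card_pos' (List.ne_nil_of_mem h)
  have h2 : (σ.toFinset.card : ℝ) ≤ Fintype.card V := by
    exact_mod_cast Finset.card_le_univ _
  refine cst_lt.le.trans ?_
  unfold bary
  rw [if_pos h]
  exact one_div_le_one_div_of_le h1 h2

variable {T}

/-- The straight line from a point of the closed star of `σ` to the barycentre. -/
theorem line_mem {σ : List V} (h0 : σ ≠ []) {y : V → ℝ} (hy : y ∈ T.real)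
    (h : ∀ v ∈ σ, y v ≠ 0) {s : ℝ} (hs : s ∈ Icc (0 : ℝ) 1) :
    (fun v => (1 - s) * y v + s * bary σ v) ∈ T.real := by
  classical
  obtain ⟨hy0, hy1, t, ht, hyt⟩ := hy
  have hs0 : 0 ≤ s := hs.1
  have hs1 : 0 ≤ 1 - s := by linarith [hs.2]
  refine ⟨fun v => ?_, ?_, ?_⟩
  · have := hy0 v
    have := bary_nonneg σ v
    positivity
  · rw [Finset.sum_add_distrib, ← Finset.mul_sum, ← Finset.mul_sum, hy1, bary_sum h0]
    ring
  · rcases eq_or_lt_of_le hs1 with h1 | h1
    · have hs' : s = 1 := by linarith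
      subst hs'
      refine ⟨σ.toFinset, T.down ht ?_ ((List.toFinset_nonempty_iff σ).2 h0), fun v => ?_⟩
      · intro v hv
        exact (hyt v).1 (h v (List.mem_toFinset.1 hv))
      · rw [List.mem_toFinset]
        constructor
        · intro h2
          by_contra h3
          exact h2 (by simp [bary_out h3])
        · intro h2
          simpa using (bary_pos h2).ne'
    · refine ⟨t, ht, fun v => ?_⟩
      rw [← hyt v]
      constructor
      · intro h2 h3
        have h4 : v ∉ σ := fun h5 => h v h5 h3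
        exact h2 (show (1 - s) * y v + s * bary σ v = 0 by rw [h3, bary_out h4]; ring)
      · intro h2
        have h3 : 0 < y v := lt_of_le_of_ne (hy0 v) (Ne.symm h2)
        have h4 := bary_nonneg σ v
        have h5 : 0 < (1 - s) * y v := mul_pos h1 h3
        have h6 : 0 ≤ s * bary σ v := mul_nonneg hs0 h4
        exact (by linarith : 0 < (1 - s) * y v + s * bary σ v).ne'

theorem bary_mem {σ : List V} (h0 : σ ≠ []) {t : Finset V} (ht : T.face t)
    (h : ∀ v ∈ σ, v ∈ t) : bary σ ∈ T.real := by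
  classical
  refine ⟨bary_nonneg σ, bary_sum h0, σ.toFinset, T.down ht ?_
    ((List.toFinset_nonempty_iff σ).2 h0), fun v => ?_⟩
  · intro v hv
    exact h v (List.mem_toFinset.1 hv)
  · rw [List.mem_toFinset]
    constructor
    · intro h2
      by_contra h3
      exact h2 (bary_out h3)
    · intro h2
      exact (bary_pos h2).ne'

section cover

variable {M : Type} [MetricSpace M] (e : M ≃ₜ T.real)

/-- The closed stars. -/
def star (v : V) : Set M := {x | cst V ≤ (e x : V → ℝ) v}

theorem star_cont (v : V) : Continuous fun x => (e x : V → ℝ) v :=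
  (continuous_apply v).comp (continuous_subtype_val.comp e.continuous)

theorem star_ne {σ : List V} {x : M} (h : x ∈ US (star e) σ) {v : V} (hv : v ∈ σ) :
    (e x : V → ℝ) v ≠ 0 := by
  have : Nonempty V := ⟨v⟩
  have h1 : cst V ≤ (e x : V → ℝ) v := h v hv
  exact (cst_pos.trans_le h1).ne'

theorem exists_face {σ : List V} {x : M} (h : x ∈ US (star e) σ) :
    ∃ s, T.face s ∧ ∀ v ∈ σ, v ∈ s := by
  obtain ⟨_, _, t, ht, h1⟩ := (e x).2
  exact ⟨t, ht, fun v hv => (h1 v).1 (star_ne e h hv)⟩

theorem leb [CompactSpace M] : ∃ ε > 0, ∀ l : List M, l ≠ [] →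
    (∀ x ∈ l, ∀ y ∈ l, dist x y < ε) → ∃ v, ∀ x ∈ l, x ∈ star e v := by
  have h1 : ∀ v, IsOpen {x : M | cst V < (e x : V → ℝ) v} := fun v =>
    isOpen_lt continuous_const (star_cont e v)
  have h2 : (univ : Set M) ⊆ ⋃ v, {x : M | cst V < (e x : V → ℝ) v} := by
    intro x _
    rw [mem_iUnion]
    by_contra h3
    push Not at h3
    obtain ⟨_, h4, _⟩ := (e x).2
    have hne : Nonempty V := by
      by_contra h5
      rw [not_nonempty_iff] at h5
      simp at h4
    have h5 : ∑ v, (e x : V → ℝ) v ≤ ∑ _v : V, cst V :=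
      Finset.sum_le_sum fun v _ => by
        have := h3 v
        simpa using this
    rw [h4, Finset.sum_const, Finset.card_univ, nsmul_eq_mul] at h5
    have h6 : (0 : ℝ) < Fintype.card V := by exact_mod_cast Fintype.card_pos
    have h7 := mul_lt_mul_of_pos_left (cst_lt (V := V)) h6
    rw [mul_one_div_cancel h6.ne'] at h7
    linarith
  obtain ⟨δ, hδ, h3⟩ := lebesgue_number_lemma_of_metric isCompact_univ h1 h2
  refine ⟨δ, hδ, fun l hl hs => ?_⟩
  obtain ⟨x, hx⟩ := List.exists_mem_of_ne_nil l hl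
  obtain ⟨v, hv⟩ := h3 x (mem_univ x)
  refine ⟨v, fun y hy => ?_⟩
  have h4 : y ∈ Metric.ball x δ := hs y hy x hx
  exact (show cst V < _ from hv h4).le

theorem bary_star {σ : List V} (h0 : σ ≠ []) {t : Finset V} (ht : T.face t)
    (h : ∀ v ∈ σ, v ∈ t) : e.symm ⟨bary σ, bary_mem h0 ht h⟩ ∈ US (star e) σ := by
  intro v hv
  show cst V ≤ (e (e.symm _) : V → ℝ) v
  rw [Homeomorph.apply_symm_apply]
  exact cst_le_bary hv

open Classical in
theorem ctr (σ : List V) (h0 : σ ≠ []) (hne : (US (star e) σ).Nonempty) :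
    ∃ x₀ ∈ US (star e) σ, ∃ H : M × ℝ → M,
    ContinuousOn H (US (star e) σ ×ˢ Icc (0 : ℝ) 1) ∧
    (∀ x ∈ US (star e) σ, ∀ s ∈ Icc (0 : ℝ) 1, H (x, s) ∈ US (star e) σ) ∧
    (∀ x ∈ US (star e) σ, H (x, 0) = x) ∧ ∀ x ∈ US (star e) σ, H (x, 1) = x₀ := by
  obtain ⟨x₁, hx₁⟩ := hne
  obtain ⟨t, ht, h⟩ := exists_face e hx₁
  have hm : ∀ p : M × ℝ, p ∈ US (star e) σ ×ˢ Icc (0 : ℝ) 1 →
      (fun v => (1 - p.2) * (e p.1 : V → ℝ) v + p.2 * bary σ v) ∈ T.real := fun p hp =>
    line_mem h0 (e p.1).2 (fun v hv => star_ne e hp.1 hv) hp.2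
  let x₀ : M := e.symm ⟨bary σ, bary_mem h0 ht h⟩
  let H : M × ℝ → M := fun p =>
    if hp : (fun v => (1 - p.2) * (e p.1 : V → ℝ) v + p.2 * bary σ v) ∈ T.real then
      e.symm ⟨_, hp⟩ else x₀
  have hH : ∀ p (hp : p ∈ US (star e) σ ×ˢ Icc (0 : ℝ) 1), H p = e.symm ⟨_, hm p hp⟩ :=
    fun p hp => dif_pos (hm p hp)
  refine ⟨x₀, bary_star e h0 ht h, H, ?_, ?_, ?_, ?_⟩
  · rw [continuousOn_iff_continuous_domRestrict]
    have h1 : (US (star e) σ ×ˢ Icc (0 : ℝ) 1).domRestrict H =
        fun p => e.symm ⟨_, hm p.1 p.2⟩ := by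
      funext p
      exact hH p.1 p.2
    rw [h1]
    apply e.symm.continuous.comp
    apply Continuous.subtype_mk
    apply continuous_pi
    intro v
    have h2 : Continuous fun p : (US (star e) σ ×ˢ Icc (0 : ℝ) 1 : Set (M × ℝ)) =>
        (e p.1.1 : V → ℝ) v := (star_cont e v).comp (continuous_fst.comp continuous_subtype_val)
    have h3 : Continuous fun p : (US (star e) σ ×ˢ Icc (0 : ℝ) 1 : Set (M × ℝ)) => p.1.2 :=
      continuous_snd.comp continuous_subtype_val
    exact ((continuous_const.sub h3).mul h2).add (h3.mul continuous_const)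
  · intro x hx s hs v hv
    rw [hH (x, s) ⟨hx, hs⟩]
    show cst V ≤ (e (e.symm _) : V → ℝ) v
    rw [Homeomorph.apply_symm_apply]
    show cst V ≤ (1 - s) * (e x : V → ℝ) v + s * bary σ v
    have h1 : cst V ≤ (e x : V → ℝ) v := hx v hv
    have h2 := cst_le_bary (σ := σ) hv
    nlinarith [hs.1, hs.2]
  · intro x hx
    rw [hH (x, 0) ⟨hx, ⟨le_rfl, zero_le_one⟩⟩, Homeomorph.symm_apply_eq]
    apply Subtype.ext
    funext v
    simp
  · intro x hx
    rw [hH (x, 1) ⟨hx, ⟨zero_le_one, le_rfl⟩⟩]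
    show e.symm _ = e.symm _
    congr 1
    apply Subtype.ext
    funext v
    simp

/-- The cover by the closed stars. -/
def gcov [CompactSpace M] : GCov M V where
  U := star e
  closed v := isClosed_le continuous_const (star_cont e v)
  leb := leb e
  ctr := ctr e

end cover

/-- **[D-GC]** -/
theorem goalGC : GoalGC := by
  intro V _ T M _ _ e
  refine ⟨gcov e, fun v x => Iff.rfl, fun σ h0 => ⟨?_, ?_⟩⟩
  · rintro ⟨x, hx⟩
    exact exists_face e hx
  · rintro ⟨t, ht, h⟩
    exact ⟨_, bary_star e h0 ht h⟩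

end Vale.Agent.P216.H934D
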